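/-
R40 (chromatic number of the plane), part T2: measurable almost-everywhere 1-avoiding covers
give regular open, pairwise disjoint, unit-avoiding sets with dense union.

This file: basic Fubini facts on unit circles and the density ("sweeping") lemma.
(helper739, after post #4934 of helper410)
-/
import Mathlib

set_option autoImplicit false
open MeasureTheory Set Filter Topology
open scoped ENNReal NNReal

namespace Crest.Agent.R040.T2

noncomputable section

/-- the unit vector `e^{iθ}` -/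
def ue (θ : ℝ) : ℂ := Complex.exp (θ * Complex.I)

lemma norm_ue (θ : ℝ) : ‖ue θ‖ = 1 := Complex.norm_exp_ofReal_mul_I θ

@[fun_prop]
lemma continuous_ue : Continuous ue := by unfold ue; fun_prop

lemma ue_add (a b : ℝ) : ue (a + b) = ue a * ue b := by
  unfold ue
  rw [← Complex.exp_add]; push_cast; ring_nf

lemma ue_zero : ue 0 = 1 := by simp [ue]

lemma ue_pi : ue Real.pi = -1 := by simp [ue]

lemma ue_add_pi (a : ℝ) : ue (a + Real.pi) = - ue a := by
  rw [ue_add, ue_pi]; ring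

lemma ue_re (a : ℝ) : (ue a).re = Real.cos a := Complex.exp_ofReal_mul_I_re a
lemma ue_im (a : ℝ) : (ue a).im = Real.sin a := Complex.exp_ofReal_mul_I_im a

lemma exists_ue {u : ℂ} (h : ‖u‖ = 1) : ∃ θ : ℝ, ue θ = u := by
  refine ⟨Complex.arg u, ?_⟩
  have := Complex.norm_mul_exp_arg_mul_I u
  rw [h] at this
  simpa [ue] using this

lemma norm_ue_sub (a b : ℝ) : ‖ue a - ue b‖ ≤ |a - b| := by
  have h : ue a - ue b = ue b * (Complex.exp (Complex.I * ((a - b : ℝ) : ℂ)) - 1) := by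
    have : ue a = ue b * ue (a - b) := by rw [← ue_add]; ring_nf
    rw [this]
    unfold ue
    rw [mul_sub, mul_one, mul_comm Complex.I]
  rw [h, norm_mul, norm_ue, one_mul]
  exact Real.norm_exp_I_mul_ofReal_sub_one_le

/-- almost no unit neighbour of `z` lies in `A` -/
def Nul (A : Set ℂ) (z : ℂ) : Prop := ∀ᵐ θ : ℝ, z + ue θ ∉ A

lemma measurable_add_ue : Measurable (fun p : ℂ × ℝ => p.1 + ue p.2) := by fun_prop

lemma measurableSet_nul {A : Set ℂ} (hA : MeasurableSet A) : MeasurableSet {z | Nul A z} := by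
  have hs : MeasurableSet {p : ℂ × ℝ | p.1 + ue p.2 ∈ A} := measurable_add_ue hA
  have h := measurable_measure_prodMk_left (ν := (volume : Measure ℝ)) hs
  have : {z | Nul A z} = (fun z : ℂ => (volume : Measure ℝ) (Prod.mk z ⁻¹' {p : ℂ × ℝ | p.1 + ue p.2 ∈ A})) ⁻¹' {0} := by
    ext z
    simp only [mem_ofPred_eq, Nul, mem_preimage, mem_singleton_iff]
    rw [ae_iff]
    simp only [not_not]
    rfl
  rw [this]
  exact h (measurableSet_singleton 0)

/-- Null sets are met by almost every unit circle in a null set. -/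
lemma ae_shift {P : ℂ → Prop} (h : ∀ᵐ z : ℂ, P z) : ∀ᵐ z : ℂ, ∀ᵐ θ : ℝ, P (z + ue θ) := by
  set N := toMeasurable (volume : Measure ℂ) {z | ¬ P z} with hN
  have hN0 : volume N = 0 := by rw [hN, measure_toMeasurable]; exact h
  have hNm : MeasurableSet N := measurableSet_toMeasurable _ _
  have h1 : ∀ᵐ θ : ℝ, ∀ᵐ z : ℂ, z + ue θ ∉ N := by
    refine Eventually.of_forall fun θ => ?_
    rw [ae_iff]
    simp only [not_not]
    have : {a : ℂ | a + ue θ ∈ N} = (fun a => a + ue θ) ⁻¹' N := rfl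
    rw [this, measure_preimage_add_right, hN0]
  have h2 : ∀ᵐ z : ℂ, ∀ᵐ θ : ℝ, z + ue θ ∉ N := by
    refine (Measure.ae_ae_comm (μ := (volume : Measure ℂ)) (ν := (volume : Measure ℝ))
      (p := fun z θ => z + ue θ ∉ N) ?_).2 h1
    exact measurable_add_ue hNm.compl
  filter_upwards [h2] with z hz
  filter_upwards [hz] with θ hθ
  by_contra hP
  exact hθ (subset_toMeasurable _ _ hP)

lemma Nul.sub {A : Set ℂ} {z : ℂ} (h : Nul A z) : ∀ᵐ θ : ℝ, z - ue θ ∉ A := by
  have h2 : ∀ᵐ θ : ℝ, z + ue (θ + Real.pi) ∉ A := by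
    have := (measurePreserving_add_right (volume : Measure ℝ) Real.pi).quasiMeasurePreserving.ae h
    exact this
  filter_upwards [h2] with θ hθ
  rwa [ue_add_pi, ← sub_eq_add_neg] at hθ

/-- For almost every `w ∈ A`, almost no unit neighbour `z` of `w` satisfies `Nul A z`. -/
lemma ae_mem_not_nul {A : Set ℂ} (hA : MeasurableSet A) :
    ∀ᵐ w : ℂ, ∀ᵐ θ : ℝ, w ∈ A → ¬ Nul A (w + ue θ) := by
  have hm := measurableSet_nul hA
  -- for every `θ` translate
  have h0 : ∀ᵐ z : ℂ, ∀ᵐ θ : ℝ, z - ue θ ∈ A → ¬ Nul A z := by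
    refine Eventually.of_forall fun z => ?_
    by_cases hz : Nul A z
    · filter_upwards [hz.sub] with θ hθ h
      exact absurd h hθ
    · exact Eventually.of_forall fun θ _ => hz
  have hms : MeasurableSet {x : ℂ × ℝ | x.1 - ue x.2 ∈ A → ¬ Nul A x.1} := by
    have e : {x : ℂ × ℝ | x.1 - ue x.2 ∈ A → ¬ Nul A x.1} =
        ((fun x : ℂ × ℝ => x.1 - ue x.2) ⁻¹' A)ᶜ ∪ (Prod.fst ⁻¹' {z | Nul A z})ᶜ := by
      ext x
      simp only [mem_ofPred_eq, mem_union, mem_compl_iff, mem_preimage]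
      tauto
    rw [e]
    refine MeasurableSet.union (MeasurableSet.compl ?_) (MeasurableSet.compl (measurable_fst hm))
    exact (by fun_prop : Measurable (fun x : ℂ × ℝ => x.1 - ue x.2)) hA
  have h1 : ∀ᵐ θ : ℝ, ∀ᵐ z : ℂ, z - ue θ ∈ A → ¬ Nul A z :=
    (Measure.ae_ae_comm (μ := (volume : Measure ℂ)) (ν := (volume : Measure ℝ))
      (p := fun z θ => z - ue θ ∈ A → ¬ Nul A z) hms).1 h0
  have h2 : ∀ᵐ θ : ℝ, ∀ᵐ w : ℂ, w ∈ A → ¬ Nul A (w + ue θ) := by
    filter_upwards [h1] with θ hθ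
    have := (measurePreserving_add_right (volume : Measure ℂ) (ue θ)).quasiMeasurePreserving.ae hθ
    simpa using this
  refine (Measure.ae_ae_comm (μ := (volume : Measure ℂ)) (ν := (volume : Measure ℝ))
      (p := fun w θ => w ∈ A → ¬ Nul A (w + ue θ)) ?_).2 h2
  have e : {x : ℂ × ℝ | x.1 ∈ A → ¬ Nul A (x.1 + ue x.2)} =
      (Prod.fst ⁻¹' A)ᶜ ∪ ((fun x : ℂ × ℝ => x.1 + ue x.2) ⁻¹' {z | Nul A z})ᶜ := by
    ext x
    simp only [mem_ofPred_eq, mem_union, mem_compl_iff, mem_preimage]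
    tauto
  rw [e]
  exact ((measurable_fst hA).compl).union (measurable_add_ue hm).compl

/-- `q` is a density point of `A` (in the form we need). -/
def Dens (A : Set ℂ) (q : ℂ) : Prop :=
  ∀ κ : ℝ, 0 < κ → ∀ᶠ r in 𝓝[>] (0 : ℝ), volume (Metric.closedBall q r \ A) ≤ ENNReal.ofReal (κ * r ^ 2)

lemma ae_dens {A : Set ℂ} (hA : MeasurableSet A) : ∀ᵐ q : ℂ, q ∈ A → Dens A q := by
  have h := Besicovitch.ae_tendsto_measure_inter_div_of_measurableSet (volume : Measure ℂ) hA.compl
  filter_upwards [h] with q hq hqA κ hκ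
  have h0 : (Aᶜ).indicator (1 : ℂ → ℝ≥0∞) q = 0 := by
    rw [indicator_of_notMem]; simpa using hqA
  rw [h0] at hq
  have hκ' : (0 : ℝ≥0∞) < ENNReal.ofReal (κ / Real.pi) := by
    rw [ENNReal.ofReal_pos]; positivity
  have h1 := (ENNReal.tendsto_nhds_zero.1 hq) _ hκ'
  have h2 : ∀ᶠ r in 𝓝[>] (0 : ℝ), 0 < r := eventually_mem_nhdsWithin
  filter_upwards [h1, h2] with r hr hr0
  have hvol : volume (Metric.closedBall q r) = ENNReal.ofReal r ^ 2 * NNReal.pi :=
    Complex.volume_closedBall q r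
  have hpos : volume (Metric.closedBall q r) ≠ 0 :=
    (Metric.measure_closedBall_pos volume q hr0).ne'
  have hfin : volume (Metric.closedBall q r) ≠ ∞ := measure_closedBall_lt_top.ne
  have h3 : volume (Aᶜ ∩ Metric.closedBall q r) ≤
      ENNReal.ofReal (κ / Real.pi) * volume (Metric.closedBall q r) :=
    (ENNReal.div_le_iff hpos hfin).1 hr
  have e1 : Metric.closedBall q r \ A = Aᶜ ∩ Metric.closedBall q r := by
    ext x; simp [and_comm]
  rw [e1]
  refine h3.trans (le_of_eq ?_)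
  rw [hvol]
  have : (NNReal.pi : ℝ≥0∞) = ENNReal.ofReal Real.pi := by
    rw [ENNReal.ofReal, ← NNReal.coe_real_pi, Real.toNNReal_coe]
  rw [this, ← ENNReal.ofReal_pow hr0.le, ← ENNReal.ofReal_mul (by positivity),
    ← ENNReal.ofReal_mul (by positivity)]
  congr 1
  field_simp

end

end Crest.Agent.R040.T2
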