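/-
R40, part T2: the sweeping lemma. (helper739)
-/
import Crest.Agent.R040.T2a

set_option autoImplicit false
open MeasureTheory Set Filter Topology
open scoped ENNReal NNReal

namespace Crest.Agent.R040.T2

noncomputable section

lemma hasStrictDerivAt_ue (a : ℝ) : HasStrictDerivAt ue (Complex.I * ue a) a := by
  have h1 : HasStrictDerivAt (fun x : ℝ => (x : ℂ) * Complex.I) Complex.I a := by
    have := (Complex.ofRealCLM.hasStrictDerivAt (x := a)).mul_const Complex.I
    simpa using this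
  have h2 := h1.cexp
  unfold ue
  convert h2 using 1
  ring

/-- the sweeping map -/
def sw (p : ℂ) : ℂ := ue p.re + ue p.im

/-- its derivative -/
def swL (b t : ℝ) : ℂ →L[ℝ] ℂ :=
  Complex.reCLM.smulRight (Complex.I * ue b) + Complex.imCLM.smulRight (Complex.I * ue t)

lemma swL_apply (b t : ℝ) (v : ℂ) :
    swL b t v = (v.re : ℂ) * (Complex.I * ue b) + (v.im : ℂ) * (Complex.I * ue t) := by
  simp [swL]

lemma hasStrictFDerivAt_sw (b t : ℝ) : HasStrictFDerivAt sw (swL b t) (⟨b, t⟩ : ℂ) := by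
  have h1 : HasStrictFDerivAt (fun p : ℂ => ue p.re)
      (Complex.reCLM.smulRight (Complex.I * ue b)) (⟨b, t⟩ : ℂ) := by
    have h := (hasStrictDerivAt_ue b).hasStrictFDerivAt
    have hr : HasStrictFDerivAt (fun p : ℂ => p.re) Complex.reCLM (⟨b, t⟩ : ℂ) :=
      Complex.reCLM.hasStrictFDerivAt
    have := HasStrictFDerivAt.comp (x := (⟨b, t⟩ : ℂ)) (g := ue) (f := fun p : ℂ => p.re) h hr
    refine this.congr_fderiv ?_
    ext v <;> simp
  have h2 : HasStrictFDerivAt (fun p : ℂ => ue p.im)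
      (Complex.imCLM.smulRight (Complex.I * ue t)) (⟨b, t⟩ : ℂ) := by
    have h := (hasStrictDerivAt_ue t).hasStrictFDerivAt
    have hr : HasStrictFDerivAt (fun p : ℂ => p.im) Complex.imCLM (⟨b, t⟩ : ℂ) :=
      Complex.imCLM.hasStrictFDerivAt
    have := HasStrictFDerivAt.comp (x := (⟨b, t⟩ : ℂ)) (g := ue) (f := fun p : ℂ => p.im) h hr
    refine this.congr_fderiv ?_
    ext v <;> simp
  exact h1.add h2

lemma det_swL (b t : ℝ) : (swL b t).det = Real.sin (t - b) := by
  have h : (swL b t).det = LinearMap.det ((swL b t : ℂ →L[ℝ] ℂ) : ℂ →ₗ[ℝ] ℂ) := rfl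
  rw [h, ← LinearMap.det_toMatrix Complex.basisOneI, Matrix.det_fin_two]
  simp only [LinearMap.toMatrix_apply, Complex.coe_basisOneI_repr, Complex.coe_basisOneI]
  simp only [Fin.isValue, Matrix.cons_val_zero, Matrix.cons_val_one, ContinuousLinearMap.coe_coe,
    swL_apply, Complex.one_re, Complex.one_im, Complex.I_re, Complex.I_im]
  simp [ue_re, ue_im, Real.sin_sub]
  ring

/-- volume of a "rectangle" -/
lemma volume_rect {S T : Set ℝ} :
    volume {p : ℂ | p.re ∈ S ∧ p.im ∈ T} = volume S * volume T := by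
  have h : {p : ℂ | p.re ∈ S ∧ p.im ∈ T} = Complex.measurableEquivRealProd ⁻¹' (S ×ˢ T) := by
    ext p; simp
  rw [h, Complex.volume_preserving_equiv_real_prod.measure_preimage_equiv,
    Measure.volume_eq_prod, Measure.prod_prod]

/-- In a product of `S` and an interval, if for each `s ∈ S` a.e. `θ` is good, then the bad part is null. -/
lemma volume_bad_null {G : Set ℂ} (hG : MeasurableSet G) {S T : Set ℝ} (hS : MeasurableSet S)
    (hT : MeasurableSet T)
    (h : ∀ s ∈ S, ∀ᵐ θ : ℝ, (⟨s, θ⟩ : ℂ) ∈ G) :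
    volume ({p : ℂ | p.re ∈ S ∧ p.im ∈ T} \ G) = 0 := by
  have hmeas : MeasurableSet ({p : ℝ × ℝ | p.1 ∈ S ∧ p.2 ∈ T} \
      (Complex.measurableEquivRealProd.symm ⁻¹' G)) := by
    refine MeasurableSet.diff ?_ ?_
    · exact hS.prod hT
    · exact Complex.measurableEquivRealProd.symm.measurable hG
  have h1 : ({p : ℂ | p.re ∈ S ∧ p.im ∈ T} \ G) = Complex.measurableEquivRealProd ⁻¹'
      ({p : ℝ × ℝ | p.1 ∈ S ∧ p.2 ∈ T} \ (Complex.measurableEquivRealProd.symm ⁻¹' G)) := by
    ext p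
    simp
  rw [h1, Complex.volume_preserving_equiv_real_prod.measure_preimage_equiv,
    Measure.volume_eq_prod, Measure.measure_prod_null hmeas]
  refine Eventually.of_forall fun s => ?_
  by_cases hs : s ∈ S
  · have := h s hs
    rw [ae_iff] at this
    refine measure_mono_null ?_ this
    intro θ hθ
    simp only [mem_preimage, Set.mem_sdiff] at hθ
    exact hθ.2
  · have : Prod.mk s ⁻¹' ({p : ℝ × ℝ | p.1 ∈ S ∧ p.2 ∈ T} \
      (Complex.measurableEquivRealProd.symm ⁻¹' G)) = ∅ := by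
      ext θ
      simp [hs]
    show volume (Prod.mk s ⁻¹' ({p : ℝ × ℝ | p.1 ∈ S ∧ p.2 ∈ T} \
      (Complex.measurableEquivRealProd.symm ⁻¹' G))) = 0
    rw [this]; simp

/-- **Sweeping lemma.** Let `q = z + e^{it}` be a density point of `A`, `w = z - e^{ib}`, with
`q - z` and `z - w` not parallel.  For all small `ε` and all `w'` with `‖w' - w‖ ≤ ε`, the set of
`s ∈ (b-ε, b+ε)` with `Nul A (w' + e^{is})` has measure at most `η ε`. -/
lemma sweep {A : Set ℂ} (hA : MeasurableSet A) {z : ℂ} {b t : ℝ} (hq : Dens A (z + ue t))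
    (hpar : Real.sin (t - b) ≠ 0) {η : ℝ} (hη : 0 < η) :
    ∀ᶠ ε in 𝓝[>] (0 : ℝ), ∀ w' : ℂ, ‖w' - (z - ue b)‖ ≤ ε →
      volume {s : ℝ | s ∈ Ioo (b - ε) (b + ε) ∧ Nul A (w' + ue s)} ≤ ENNReal.ofReal (η * ε) := by
  set L := swL b t with hL
  set d : ℝ := |Real.sin (t - b)| with hd
  have hd0 : 0 < d := abs_pos.2 hpar
  -- choose `m`
  set m : ℝ≥0 := ⟨d / 2, by positivity⟩ with hm
  have hmr : (m : ℝ) = d / 2 := rfl
  have hmd : (m : ℝ≥0∞) < ENNReal.ofReal |L.det| := by
    rw [hL, det_swL, ← hd, ENNReal.lt_ofReal_iff_toReal_lt ENNReal.coe_ne_top]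
    simp only [ENNReal.coe_toReal, hmr]
    linarith
  obtain ⟨δ, hδ, hδ0⟩ : ∃ δ : ℝ≥0, (∀ (s : Set ℂ) (f : ℂ → ℂ), ApproximatesLinearOn f L s δ →
      (m : ℝ≥0∞) * volume s ≤ volume (f '' s)) ∧ 0 < δ := by
    have h1 := mul_le_addHaar_image_of_lt_det (volume : Measure ℂ) L hmd
    have h2 : ∀ᶠ δ in 𝓝[>] (0 : ℝ≥0), 0 < δ := eventually_mem_nhdsWithin
    exact (h1.and h2).exists
  obtain ⟨V, hV, hVL⟩ := (hasStrictFDerivAt_sw b t).approximates_deriv_on_nhds (c := δ) (Or.inr hδ0)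
  obtain ⟨ρ, hρ0, hρ⟩ := Metric.mem_nhds_iff.1 hV
  -- density constant
  set κ : ℝ := η * d / 9 with hκ
  have hκ0 : 0 < κ := by positivity
  have hdens := hq κ hκ0
  -- the density at scale `3 ε`
  have h3 : Tendsto (fun ε : ℝ => 3 * ε) (𝓝[>] 0) (𝓝[>] 0) := by
    refine tendsto_nhdsWithin_iff.2 ⟨?_, ?_⟩
    · have : Tendsto (fun ε : ℝ => 3 * ε) (𝓝 0) (𝓝 (3 * 0)) :=
        (continuous_const.mul continuous_id).tendsto 0
      rw [mul_zero] at this
      exact this.mono_left nhdsWithin_le_nhds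
    · filter_upwards [eventually_mem_nhdsWithin] with ε hε
      simp only [mem_Ioi] at hε ⊢
      linarith
  have hdens3 := h3.eventually hdens
  have hsmall : ∀ᶠ ε in 𝓝[>] (0 : ℝ), ε < ρ / 2 :=
    nhdsWithin_le_nhds (Iio_mem_nhds (by positivity))
  filter_upwards [hdens3, hsmall, eventually_mem_nhdsWithin] with ε hε1 hε2 hε3 w' hw'
  have hε0 : (0 : ℝ) < ε := hε3
  set S : Set ℝ := {s : ℝ | s ∈ Ioo (b - ε) (b + ε) ∧ Nul A (w' + ue s)} with hS
  set T : Set ℝ := Ioo (t - ε) (t + ε) with hT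
  have hSm : MeasurableSet S := by
    refine MeasurableSet.inter measurableSet_Ioo ?_
    exact (by fun_prop : Measurable (fun s : ℝ => w' + ue s)) (measurableSet_nul hA)
  set G : Set ℂ := {p : ℂ | w' + sw p ∉ A} with hG
  have hswc : Continuous sw := by unfold sw; fun_prop
  have hGm : MeasurableSet G := by
    have : Measurable (fun p : ℂ => w' + sw p) := (continuous_const.add hswc).measurable
    exact this hA.compl
  set R : Set ℂ := {p : ℂ | p.re ∈ S ∧ p.im ∈ T} with hR
  have hRG : volume (R \ G) = 0 := by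
    refine volume_bad_null hGm hSm measurableSet_Ioo ?_
    intro s hs
    have := hs.2
    filter_upwards [this] with θ hθ
    simp only [hG, mem_ofPred_eq, sw]
    rwa [← add_assoc]
  have hRV : R ⊆ V := by
    intro p hp
    apply hρ
    rw [Metric.mem_ball, dist_eq_norm]
    have h1 : |p.re - b| < ε := by
      rw [abs_lt]; have := hp.1.1; constructor <;> linarith [this.1, this.2]
    have h2 : |p.im - t| < ε := by
      rw [abs_lt]; have := hp.2; constructor <;> linarith [this.1, this.2]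
    calc ‖p - (⟨b, t⟩ : ℂ)‖ ≤ |(p - (⟨b, t⟩ : ℂ)).re| + |(p - (⟨b, t⟩ : ℂ)).im| :=
          Complex.norm_le_abs_re_add_abs_im _
      _ = |p.re - b| + |p.im - t| := by simp
      _ < ρ := by linarith
  have hApp : ApproximatesLinearOn (fun p => w' + sw p) L (R ∩ G) δ := by
    have h1 : ApproximatesLinearOn sw L (R ∩ G) δ :=
      hVL.mono_set (inter_subset_left.trans hRV)
    intro x hx y hy
    have := h1 x hx y hy
    simpa using this
  have hkey := hδ (R ∩ G) _ hApp
  have hvolR : volume R = volume (R ∩ G) := by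
    rw [← measure_inter_add_sdiff R hGm, hRG, add_zero]
  have himg : (fun p => w' + sw p) '' (R ∩ G) ⊆ Metric.closedBall (z + ue t) (3 * ε) \ A := by
    rintro _ ⟨p, ⟨hpR, hpG⟩, rfl⟩
    refine ⟨?_, hpG⟩
    rw [Metric.mem_closedBall, dist_eq_norm]
    have h1 : |p.re - b| ≤ ε := by
      rw [abs_le]; have := hpR.1.1; constructor <;> linarith [this.1, this.2]
    have h2 : |p.im - t| ≤ ε := by
      rw [abs_le]; have := hpR.2; constructor <;> linarith [this.1, this.2]
    have e : w' + sw p - (z + ue t) = (w' - (z - ue b)) + (ue p.re - ue b) + (ue p.im - ue t) := by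
      simp only [sw]; ring
    show ‖w' + sw p - (z + ue t)‖ ≤ 3 * ε
    rw [e]
    have h4 := norm_ue_sub p.re b
    have h5 := norm_ue_sub p.im t
    calc _ ≤ ‖w' - (z - ue b)‖ + ‖ue p.re - ue b‖ + ‖ue p.im - ue t‖ := norm_add₃_le
      _ ≤ 3 * ε := by linarith
  have hfin : (m : ℝ≥0∞) * (volume S * ENNReal.ofReal (2 * ε)) ≤ ENNReal.ofReal (κ * (3 * ε) ^ 2) := by
    have h1 : volume R = volume S * ENNReal.ofReal (2 * ε) := by
      rw [hR, volume_rect, hT, Real.volume_Ioo]
      congr 2; ring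
    rw [← h1, hvolR]
    exact hkey.trans ((measure_mono himg).trans hε1)
  -- conclude
  have hmE : (m : ℝ≥0∞) = ENNReal.ofReal (d / 2) := by
    rw [ENNReal.ofReal]
    congr 1
    ext
    rw [Real.coe_toNNReal _ (by positivity)]
    rfl
  have h6 : volume S * ENNReal.ofReal (d * ε) ≤ ENNReal.ofReal (η * ε) * ENNReal.ofReal (d * ε) := by
    have e1 : (m : ℝ≥0∞) * (volume S * ENNReal.ofReal (2 * ε)) = volume S * ENNReal.ofReal (d * ε) := by
      rw [hmE, mul_left_comm, ← ENNReal.ofReal_mul (by positivity)]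
      congr 2; ring
    rw [← e1, ← ENNReal.ofReal_mul (by positivity)]
    refine hfin.trans (le_of_eq ?_)
    congr 1
    rw [hκ]; ring
  have h7 : ENNReal.ofReal (d * ε) ≠ 0 := by
    rw [Ne, ENNReal.ofReal_eq_zero, not_le]; positivity
  exact (ENNReal.mul_le_mul_iff_left h7 ENNReal.ofReal_ne_top).1 h6

end

end Crest.Agent.R040.T2
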