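/-
R40, part T2: the key local lemma and the density of the "null interior". (helper739)
-/
import Crest.Agent.R040.T2b

set_option autoImplicit false
open MeasureTheory Set Filter Topology
open scoped ENNReal NNReal

namespace Crest.Agent.R040.T2

noncomputable section

lemma ae_sin_ne_zero (b : ℝ) : ∀ᵐ t : ℝ, Real.sin (t - b) ≠ 0 := by
  have hc : ({t : ℝ | Real.sin (t - b) = 0}).Countable := by
    refine (Set.countable_range (fun n : ℤ => b + n * Real.pi)).mono ?_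
    intro t ht
    obtain ⟨n, hn⟩ := Real.sin_eq_zero_iff.1 ht
    exact ⟨n, by simp only; linarith⟩
  filter_upwards [hc.ae_notMem (volume : Measure ℝ)] with t ht h
  exact ht h

lemma card_erase_le (J : Finset (Fin 5)) (i : Fin 5) : (J.erase i).card ≤ 5 := by
  have := Finset.card_le_univ (J.erase i)
  simpa using this

/-- Step 1 of the key lemma. -/
lemma key_local {A : Fin 5 → Set ℂ} (hA : ∀ i, MeasurableSet (A i)) {B : Set ℂ} (hB : IsOpen B)
    {J : Finset (Fin 5)} {i : Fin 5} (hJ : ∀ᵐ z : ℂ, z ∈ B → ∃ j ∈ J, Nul (A j) z)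
    {z : ℂ} (hz : z ∈ B) (hn : ∀ j ∈ J.erase i, ¬ Nul (A j) z)
    (hd : ∀ j, ∀ᵐ θ : ℝ, z + ue θ ∈ A j → Dens (A j) (z + ue θ)) (b : ℝ) :
    ∃ ρ > 0, ∀ᵐ w : ℂ, w ∈ Metric.ball (z - ue b) ρ → w ∉ A i := by
  have hex : ∀ j ∈ J.erase i, ∃ t : ℝ, Dens (A j) (z + ue t) ∧ Real.sin (t - b) ≠ 0 := by
    intro j hj
    have h1 : ∃ᶠ θ in ae (volume : Measure ℝ), z + ue θ ∈ A j := by
      have := hn j hj
      unfold Nul at this
      rw [not_eventually] at this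
      simpa using this
    obtain ⟨t, ht1, ht2, ht3⟩ := (h1.and_eventually ((hd j).and (ae_sin_ne_zero b))).exists
    exact ⟨t, ht2 ht1, ht3⟩
  have hsw : ∀ j ∈ J.erase i, ∀ᶠ ε in 𝓝[>] (0 : ℝ), ∀ w' : ℂ, ‖w' - (z - ue b)‖ ≤ ε →
      volume {s : ℝ | s ∈ Ioo (b - ε) (b + ε) ∧ Nul (A j) (w' + ue s)} ≤
        ENNReal.ofReal ((1 / 4) * ε) := by
    intro j hj
    obtain ⟨t, ht1, ht2⟩ := hex j hj
    exact sweep (hA j) ht1 ht2 (by norm_num)
  have hsw' := (Filter.eventually_all_finset (J.erase i)).2 hsw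
  obtain ⟨r, hr0, hr⟩ := Metric.isOpen_iff.1 hB z hz
  have hsmall : ∀ᶠ ε in 𝓝[>] (0 : ℝ), ε < r / 2 :=
    nhdsWithin_le_nhds (Iio_mem_nhds (by positivity))
  obtain ⟨ε, hε1, hε2, hε3⟩ := (hsw'.and (hsmall.and eventually_mem_nhdsWithin)).exists
  have hε0 : (0 : ℝ) < ε := hε3
  refine ⟨ε, hε0, ?_⟩
  filter_upwards [ae_shift hJ, ae_mem_not_nul (hA i)] with w hw1 hw2 hwb hwA
  have hwn : ‖w - (z - ue b)‖ < ε := by
    rwa [Metric.mem_ball, dist_eq_norm] at hwb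
  -- a.e. `s` in the interval lies in the union of the bad sets
  have hsub : (Ioo (b - ε) (b + ε) : Set ℝ) ≤ᵐ[volume]
      (⋃ j ∈ J.erase i, {s : ℝ | s ∈ Ioo (b - ε) (b + ε) ∧ Nul (A j) (w + ue s)} : Set ℝ) := by
    filter_upwards [hw1, hw2] with s hs1 hs2 hs
    have hsB : w + ue s ∈ B := by
      apply hr
      rw [Metric.mem_ball, dist_eq_norm]
      have e : w + ue s - z = (w - (z - ue b)) + (ue s - ue b) := by ring
      rw [e]
      have h1 : |s - b| < ε := by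
        rw [abs_lt]; have := (mem_Ioo.1 hs); constructor <;> linarith [this.1, this.2]
      calc _ ≤ ‖w - (z - ue b)‖ + ‖ue s - ue b‖ := norm_add_le _ _
        _ < r := by linarith [norm_ue_sub s b]
    obtain ⟨j, hj, hjN⟩ := hs1 hsB
    have hji : j ≠ i := by
      rintro rfl
      exact hs2 hwA hjN
    show s ∈ (⋃ j ∈ J.erase i, {s : ℝ | s ∈ Ioo (b - ε) (b + ε) ∧ Nul (A j) (w + ue s)} : Set ℝ)
    simp only [mem_iUnion]
    exact ⟨j, Finset.mem_erase.2 ⟨hji, hj⟩, hs, hjN⟩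
  have h1 : volume (Ioo (b - ε) (b + ε)) ≤
      ∑ j ∈ J.erase i, volume {s : ℝ | s ∈ Ioo (b - ε) (b + ε) ∧ Nul (A j) (w + ue s)} :=
    (measure_mono_ae hsub).trans (measure_biUnion_finset_le _ _)
  have h2 : ∑ j ∈ J.erase i, volume {s : ℝ | s ∈ Ioo (b - ε) (b + ε) ∧ Nul (A j) (w + ue s)} ≤
      ∑ _j ∈ J.erase i, ENNReal.ofReal ((1 / 4) * ε) :=
    Finset.sum_le_sum fun j hj => hε1 j hj w hwn.le
  have h3 : ∑ _j ∈ J.erase i, ENNReal.ofReal ((1 / 4) * ε) ≤ ENNReal.ofReal ((5 / 4) * ε) := by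
    rw [Finset.sum_const, nsmul_eq_mul]
    have hc : ((J.erase i).card : ℝ≥0∞) ≤ ENNReal.ofReal 5 := by
      have := card_erase_le J i
      calc ((J.erase i).card : ℝ≥0∞) ≤ ((5 : ℕ) : ℝ≥0∞) := by exact_mod_cast this
        _ = ENNReal.ofReal 5 := by simp
    calc _ ≤ ENNReal.ofReal 5 * ENNReal.ofReal ((1 / 4) * ε) := by gcongr
      _ = ENNReal.ofReal ((5 / 4) * ε) := by
        rw [← ENNReal.ofReal_mul (by norm_num)]; congr 1; ring
  have h4 : ENNReal.ofReal (2 * ε) ≤ ENNReal.ofReal ((5 / 4) * ε) := by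
    have e : volume (Ioo (b - ε) (b + ε)) = ENNReal.ofReal (2 * ε) := by
      rw [Real.volume_Ioo]; congr 1; ring
    rw [← e]
    exact h1.trans (h2.trans h3)
  rw [ENNReal.ofReal_le_ofReal_iff (by positivity)] at h4
  linarith

/-- **Key lemma**: if near `z` every point needs colour `i` as far as the other colours of `J` go at
`z`, then almost every point near `z` is `Nul` for `A i`. -/
lemma key {A : Fin 5 → Set ℂ} (hA : ∀ i, MeasurableSet (A i)) {B : Set ℂ} (hB : IsOpen B)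
    {J : Finset (Fin 5)} {i : Fin 5} (hJ : ∀ᵐ z : ℂ, z ∈ B → ∃ j ∈ J, Nul (A j) z)
    {z : ℂ} (hz : z ∈ B) (hn : ∀ j ∈ J.erase i, ¬ Nul (A j) z)
    (hd : ∀ j, ∀ᵐ θ : ℝ, z + ue θ ∈ A j → Dens (A j) (z + ue θ)) :
    ∃ r > 0, ∀ᵐ z' : ℂ, z' ∈ Metric.ball z r → Nul (A i) z' := by
  set V : Set ℂ := ⋃₀ {O : Set ℂ | IsOpen O ∧ volume (A i ∩ O) = 0} with hV
  have hVo : IsOpen V := isOpen_sUnion fun O hO => hO.1
  have hVn : volume (A i ∩ V) = 0 := by
    refine measure_null_of_locally_null _ ?_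
    rintro w ⟨hwA, O, ⟨hO, hO0⟩, hwO⟩
    refine ⟨A i ∩ O, ?_, hO0⟩
    have h1 : O ∩ (A i ∩ V) ∈ 𝓝[A i ∩ V] w :=
      inter_mem (mem_nhdsWithin_of_mem_nhds (hO.mem_nhds hwO)) self_mem_nhdsWithin
    filter_upwards [h1] with x hx
    exact ⟨hx.2.1, hx.1⟩
  have hVae : ∀ᵐ w : ℂ, w ∈ V → w ∉ A i := by
    rw [ae_iff]
    convert hVn using 2
    ext w
    simp only [Classical.not_imp, not_not, mem_ofPred_eq, mem_inter_iff]
    tauto
  have hsub : Metric.sphere z 1 ⊆ V := by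
    intro w hw
    have hw1 : ‖z - w‖ = 1 := by
      rw [Metric.mem_sphere, dist_eq_norm] at hw
      rw [← hw, norm_sub_rev]
    obtain ⟨b, hb⟩ := exists_ue hw1
    obtain ⟨ρ, hρ0, hρ⟩ := key_local hA hB hJ hz hn hd b
    have hwb : z - ue b = w := by rw [hb]; ring
    rw [hwb] at hρ
    refine ⟨Metric.ball w ρ, ⟨Metric.isOpen_ball, ?_⟩, Metric.mem_ball_self hρ0⟩
    rw [ae_iff] at hρ
    convert hρ using 2
    ext x
    simp only [Classical.not_imp, not_not, mem_ofPred_eq, mem_inter_iff]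
    tauto
  obtain ⟨δ, hδ0, hδ⟩ := (isCompact_sphere z 1).exists_thickening_subset_open hVo hsub
  refine ⟨δ, hδ0, ?_⟩
  filter_upwards [ae_shift hVae] with z' hz' hzb
  filter_upwards [hz'] with θ hθ
  refine hθ (hδ ?_)
  rw [Metric.mem_thickening_iff]
  refine ⟨z + ue θ, ?_, ?_⟩
  · rw [Metric.mem_sphere, dist_eq_norm]
    simp [norm_ue]
  · rw [dist_add_right]
    exact Metric.mem_ball.1 hzb

/-- **Density theorem**: if a.e. point is `Nul` for some colour, then every nonempty open set contains a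
nonempty open set a.e. point of which is `Nul` for one fixed colour. -/
theorem dense_nul {A : Fin 5 → Set ℂ} (hA : ∀ i, MeasurableSet (A i))
    (hcov : ∀ᵐ z : ℂ, ∃ i, Nul (A i) z) {B₀ : Set ℂ} (hB₀ : IsOpen B₀) (hne : B₀.Nonempty) :
    ∃ i, ∃ B ⊆ B₀, IsOpen B ∧ B.Nonempty ∧ ∀ᵐ z : ℂ, z ∈ B → Nul (A i) z := by
  classical
  let P : Finset (Fin 5) → Prop := fun J =>
    ∃ B ⊆ B₀, IsOpen B ∧ B.Nonempty ∧ ∀ᵐ z : ℂ, z ∈ B → ∃ j ∈ J, Nul (A j) z
  have hPuniv : P Finset.univ := by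
    refine ⟨B₀, Subset.rfl, hB₀, hne, ?_⟩
    filter_upwards [hcov] with z hz _
    obtain ⟨i, hi⟩ := hz
    exact ⟨i, Finset.mem_univ _, hi⟩
  obtain ⟨J, hJmem, hJmin⟩ := Finset.exists_min_image
    ((Finset.univ : Finset (Finset (Fin 5))).filter P) Finset.card
    ⟨Finset.univ, by simp [hPuniv]⟩
  obtain ⟨B, hBB, hBo, hBne, hBae⟩ : P J := by simpa using hJmem
  have hJne : J.Nonempty := by
    by_contra hJe
    rw [Finset.not_nonempty_iff_eq_empty] at hJe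
    subst hJe
    have h1 : ∀ᵐ z : ℂ, z ∉ B := by
      filter_upwards [hBae] with z hz hzB
      obtain ⟨j, hj, _⟩ := hz hzB
      simp at hj
    have h2 : volume B = 0 := by
      rw [ae_iff] at h1
      simpa using h1
    exact (hBo.measure_pos volume hBne).ne' h2
  obtain ⟨i, hi⟩ := hJne
  have hnot : ¬ P (J.erase i) := by
    intro h
    have := hJmin (J.erase i) (by simp [h])
    have h2 := Finset.card_erase_lt_of_mem hi
    omega
  have hfreq : ∃ᶠ z in ae (volume : Measure ℂ), z ∈ B ∧ ∀ j ∈ J.erase i, ¬ Nul (A j) z := by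
    by_contra hcon
    rw [not_frequently] at hcon
    apply hnot
    refine ⟨B, hBB, hBo, hBne, ?_⟩
    filter_upwards [hcon] with z hz hzB
    by_contra h
    push Not at h
    exact hz ⟨hzB, h⟩
  have hdens : ∀ᵐ z : ℂ, ∀ j, ∀ᵐ θ : ℝ, z + ue θ ∈ A j → Dens (A j) (z + ue θ) := by
    rw [ae_all_iff]
    intro j
    exact ae_shift (ae_dens (hA j))
  obtain ⟨z, ⟨hzB, hzn⟩, hzd⟩ := (hfreq.and_eventually hdens).exists
  obtain ⟨r, hr0, hr⟩ := key hA hBo hBae hzB hzn hzd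
  refine ⟨i, B ∩ Metric.ball z r, inter_subset_left.trans hBB, hBo.inter Metric.isOpen_ball,
    ⟨z, hzB, Metric.mem_ball_self hr0⟩, ?_⟩
  filter_upwards [hr] with z' hz' hz'B
  exact hz' hz'B.2

end

end Crest.Agent.R040.T2
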