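/-
R40, part T2: filling up, disjointification, regularisation; the final statement of T2. (helper739)
-/
import Crest.Agent.R040.T2c

set_option autoImplicit false
open MeasureTheory Set Filter Topology
open scoped ENNReal NNReal

namespace Crest.Agent.R040.T2

noncomputable section

/-- a.e. `1`-avoiding -/
def AEAvoid (A : Set ℂ) : Prop := ∀ᵐ z : ℂ, z ∈ A → Nul A z

lemma Nul.mono {A A' : Set ℂ} (h : A ⊆ A') {z : ℂ} (hz : Nul A' z) : Nul A z := by
  filter_upwards [hz] with θ hθ h'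
  exact hθ (h h')

lemma Nul.union {A A' : Set ℂ} {z : ℂ} (hz : Nul A z) (hz' : Nul A' z) : Nul (A ∪ A') z := by
  filter_upwards [hz, hz'] with θ hθ hθ' h
  rcases h with h | h
  · exact hθ h
  · exact hθ' h

lemma Nul.iUnion {A : ℕ → Set ℂ} {z : ℂ} (hz : ∀ n, Nul (A n) z) : Nul (⋃ n, A n) z := by
  have := ae_all_iff.2 hz
  filter_upwards [this] with θ hθ h
  obtain ⟨n, hn⟩ := mem_iUnion.1 h
  exact hθ n hn

/-- adding a set of diameter `< 1` of `Nul` points keeps the avoidance -/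
lemma AEAvoid.union {S B : Set ℂ} (hS : MeasurableSet S) (h : AEAvoid S)
    (hB : ∀ᵐ z : ℂ, z ∈ B → Nul S z) (hd : ∀ x ∈ B, ∀ y ∈ B, dist x y < 1) :
    AEAvoid (S ∪ B) := by
  filter_upwards [h, hB, ae_shift hB, ae_mem_not_nul hS] with z h1 h2 h3 h4 hz
  rcases hz with hz | hz
  · refine (h1 hz).union ?_
    filter_upwards [h3, h4] with θ hθ3 hθ4 hθB
    exact hθ4 hz (hθ3 hθB)
  · refine (h2 hz).union (Eventually.of_forall fun θ hθ => ?_)
    have := hd z hz _ hθ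
    rw [dist_eq_norm] at this
    simp [norm_ue] at this

lemma AEAvoid.iUnion {S : ℕ → Set ℂ} (hm : Monotone S) (h : ∀ n, AEAvoid (S n)) :
    AEAvoid (⋃ n, S n) := by
  have := ae_all_iff.2 h
  filter_upwards [this] with z hz hzS
  obtain ⟨m, hm'⟩ := mem_iUnion.1 hzS
  refine Nul.iUnion fun n => ?_
  rcases le_total m n with hmn | hmn
  · exact hz n (hm hmn hm')
  · exact (hz m hm').mono (hm hmn)

/-- a countable family of small balls that is a π-base -/
lemma exists_balls : ∃ B : ℕ → Set ℂ, (∀ n, IsOpen (B n)) ∧ (∀ n, (B n).Nonempty) ∧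
    (∀ n, ∀ x ∈ B n, ∀ y ∈ B n, dist x y < 1) ∧
    ∀ O : Set ℂ, IsOpen O → O.Nonempty → ∃ n, B n ⊆ O := by
  let c : ℕ → ℂ := TopologicalSpace.denseSeq ℂ
  let rr : ℕ → ℝ := fun k => 1 / (2 * ((k : ℝ) + 1))
  have hr0 : ∀ k, 0 < rr k := fun k => by
    simp only [rr]; positivity
  have hr1 : ∀ k, rr k ≤ 1 / 2 := fun k => by
    simp only [rr]
    apply one_div_le_one_div_of_le (by norm_num)
    have : (0 : ℝ) ≤ k := Nat.cast_nonneg k
    linarith
  refine ⟨fun n => Metric.ball (c n.unpair.1) (rr n.unpair.2), fun n => Metric.isOpen_ball,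
    fun n => ⟨c n.unpair.1, Metric.mem_ball_self (hr0 _)⟩, ?_, ?_⟩
  · intro n x hx y hy
    rw [Metric.mem_ball] at hx hy
    have h := dist_triangle_right x y (c n.unpair.1)
    have := hr1 n.unpair.2
    linarith
  · intro O hO hne
    obtain ⟨x, hx⟩ := hne
    obtain ⟨ε, hε0, hε⟩ := Metric.isOpen_iff.1 hO x hx
    obtain ⟨k, hk⟩ := exists_nat_gt (1 / ε)
    have hk2 : 2 * rr k < ε := by
      have h1 : 2 * rr k = 1 / ((k : ℝ) + 1) := by
        simp only [rr]; field_simp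
      rw [h1, one_div_lt (by positivity) hε0]
      linarith
    obtain ⟨m, hm⟩ := Metric.denseRange_iff.1 (TopologicalSpace.denseRange_denseSeq ℂ) x (rr k) (hr0 k)
    refine ⟨Nat.pair m k, ?_⟩
    simp only [Nat.unpair_pair]
    refine Subset.trans ?_ hε
    intro y hy
    rw [Metric.mem_ball] at hy ⊢
    have h := dist_triangle y (c m) x
    have h' : dist (c m) x < rr k := by rw [dist_comm]; exact hm
    linarith

open Classical in
/-- the greedy filling sequence -/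
def fillSeq (B : ℕ → Set ℂ) (A : Set ℂ) : ℕ → Set ℂ
  | 0 => A
  | n + 1 => if (∀ᵐ z : ℂ, z ∈ B n → Nul (fillSeq B A n) z) then fillSeq B A n ∪ B n
      else fillSeq B A n

lemma fillSeq_succ_pos {B : ℕ → Set ℂ} {A : Set ℂ} {n : ℕ}
    (h : ∀ᵐ z : ℂ, z ∈ B n → Nul (fillSeq B A n) z) :
    fillSeq B A (n + 1) = fillSeq B A n ∪ B n := by
  simp only [fillSeq]; rw [if_pos h]

lemma fillSeq_succ_neg {B : ℕ → Set ℂ} {A : Set ℂ} {n : ℕ}
    (h : ¬ ∀ᵐ z : ℂ, z ∈ B n → Nul (fillSeq B A n) z) :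
    fillSeq B A (n + 1) = fillSeq B A n := by
  simp only [fillSeq]; rw [if_neg h]

lemma fillSeq_mono (B : ℕ → Set ℂ) (A : Set ℂ) : Monotone (fillSeq B A) := by
  refine monotone_nat_of_le_succ fun n => ?_
  by_cases h : ∀ᵐ z : ℂ, z ∈ B n → Nul (fillSeq B A n) z
  · rw [fillSeq_succ_pos h]; exact subset_union_left
  · rw [fillSeq_succ_neg h]

lemma fillSeq_props {B : ℕ → Set ℂ} (hB : ∀ n, IsOpen (B n))
    (hd : ∀ n, ∀ x ∈ B n, ∀ y ∈ B n, dist x y < 1) {A : Set ℂ} (hA : MeasurableSet A)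
    (hav : AEAvoid A) (n : ℕ) : MeasurableSet (fillSeq B A n) ∧ AEAvoid (fillSeq B A n) := by
  induction n with
  | zero => exact ⟨hA, hav⟩
  | succ n ih =>
    by_cases h : ∀ᵐ z : ℂ, z ∈ B n → Nul (fillSeq B A n) z
    · rw [fillSeq_succ_pos h]
      exact ⟨ih.1.union (hB n).measurableSet, ih.2.union ih.1 h (hd n)⟩
    · rw [fillSeq_succ_neg h]; exact ih

/-- **Filling lemma.** -/
lemma fill {A : Set ℂ} (hA : MeasurableSet A) (hav : AEAvoid A) :
    ∃ A' : Set ℂ, A ⊆ A' ∧ MeasurableSet A' ∧ AEAvoid A' ∧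
      ∀ O : Set ℂ, IsOpen O → O.Nonempty → (∀ᵐ z : ℂ, z ∈ O → Nul A' z) →
        ∃ O' ⊆ O, IsOpen O' ∧ O'.Nonempty ∧ O' ⊆ A' := by
  obtain ⟨B, hB, hBne, hd, hbase⟩ := exists_balls
  have hp := fillSeq_props hB hd hA hav
  refine ⟨⋃ n, fillSeq B A n, subset_iUnion (fillSeq B A) 0, MeasurableSet.iUnion fun n => (hp n).1,
    AEAvoid.iUnion (fillSeq_mono B A) fun n => (hp n).2, ?_⟩
  intro O hO hOne hN
  obtain ⟨n, hn⟩ := hbase O hO hOne
  refine ⟨B n, hn, hB n, hBne n, ?_⟩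
  have h : ∀ᵐ z : ℂ, z ∈ B n → Nul (fillSeq B A n) z := by
    filter_upwards [hN] with z hz hzB
    exact (hz (hn hzB)).mono (subset_iUnion (fillSeq B A) n)
  have h2 : B n ⊆ fillSeq B A (n + 1) := by
    rw [fillSeq_succ_pos h]; exact subset_union_right
  exact h2.trans (subset_iUnion (fillSeq B A) (n + 1))

/-- the interior of an a.e. avoiding set is unit-avoiding -/
lemma AEAvoid.interior {A : Set ℂ} (h : AEAvoid A) :
    ∀ x ∈ interior A, ∀ y ∈ interior A, dist x y ≠ 1 := by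
  intro x hx y hy hxy
  have hyx : ‖y - x‖ = 1 := by rw [← dist_eq_norm, dist_comm]; exact hxy
  obtain ⟨t, ht⟩ := exists_ue hyx
  obtain ⟨ε₁, hε₁0, hε₁⟩ := Metric.isOpen_iff.1 isOpen_interior x hx
  obtain ⟨ε₂, hε₂0, hε₂⟩ := Metric.isOpen_iff.1 isOpen_interior y hy
  set ε := min ε₁ ε₂ with hε
  have hε0 : 0 < ε := lt_min hε₁0 hε₂0
  have h1 : volume (Metric.ball x (ε / 2)) ≠ 0 :=
    (Metric.measure_ball_pos volume x (by positivity)).ne'
  have h2 : ∃ z ∈ Metric.ball x (ε / 2), Nul A z := by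
    by_contra hcon
    push Not at hcon
    apply h1
    refine measure_mono_null ?_ h
    intro z hz
    simp only [mem_compl_iff, mem_ofPred_eq, Classical.not_imp]
    refine ⟨interior_subset (hε₁ ?_), hcon z hz⟩
    rw [Metric.mem_ball] at hz ⊢
    have := min_le_left ε₁ ε₂
    linarith
  obtain ⟨z, hz, hzN⟩ := h2
  have h3 : volume (Ioo (t - ε / 2) (t + ε / 2)) ≠ 0 := by
    rw [Real.volume_Ioo, Ne, ENNReal.ofReal_eq_zero, not_le]
    linarith
  apply h3
  refine measure_mono_null ?_ hzN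
  intro θ hθ
  simp only [mem_compl_iff, mem_ofPred_eq, not_not]
  apply interior_subset
  apply hε₂
  rw [Metric.mem_ball, dist_eq_norm]
  have e : z + ue θ - y = (z - x) + (ue θ - ue t) := by rw [ht]; ring
  rw [e]
  have h4 : ‖z - x‖ < ε / 2 := by rwa [Metric.mem_ball, dist_eq_norm] at hz
  have h5 : |θ - t| < ε / 2 := by
    rw [abs_lt]; have := mem_Ioo.1 hθ; constructor <;> linarith [this.1, this.2]
  have h6 := min_le_right ε₁ ε₂
  calc _ ≤ ‖z - x‖ + ‖ue θ - ue t‖ := norm_add_le _ _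
    _ < ε₂ := by linarith [norm_ue_sub θ t]

/-- disjointification and regularisation of open unit-avoiding sets with dense union -/
theorem regularise {V : Fin 5 → Set ℂ} (hVo : ∀ i, IsOpen (V i))
    (hVa : ∀ i, ∀ x ∈ V i, ∀ y ∈ V i, dist x y ≠ 1) (hVd : Dense (⋃ i, V i)) :
    ∃ U : Fin 5 → Set ℂ, (∀ i, IsOpen (U i)) ∧ (∀ i, interior (closure (U i)) = U i) ∧
      (∀ i j, i ≠ j → Disjoint (U i) (U j)) ∧
      (∀ i, ∀ x ∈ U i, ∀ y ∈ U i, dist x y ≠ 1) ∧ Dense (⋃ i, U i) := by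
  classical
  -- disjointify
  let D : Fin 5 → Set ℂ := fun i => V i \ closure (⋃ j ∈ {j : Fin 5 | j < i}, V j)
  have hDo : ∀ i, IsOpen (D i) := fun i => (hVo i).sdiff isClosed_closure
  have hDV : ∀ i, D i ⊆ V i := fun i => Set.sdiff_subset
  have hlt : ∀ i j, i < j → Disjoint (D i) (D j) := by
    intro i j hij
    rw [Set.disjoint_left]
    intro x hxi hxj
    apply hxj.2
    apply subset_closure
    simp only [mem_iUnion]
    exact ⟨i, hij, hxi.1⟩
  have hDd : ∀ i j, i ≠ j → Disjoint (D i) (D j) := by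
    intro i j hij
    rcases lt_or_gt_of_ne hij with h | h
    · exact hlt i j h
    · exact (hlt j i h).symm
  have hDdense : Dense (⋃ i, D i) := by
    rw [dense_iff_inter_open]
    intro O hO hOne
    obtain ⟨x, hxO, hxV⟩ := dense_iff_inter_open.1 hVd O hO hOne
    have hex : ∃ i, (O ∩ V i).Nonempty := by
      obtain ⟨i, hi⟩ := mem_iUnion.1 hxV
      exact ⟨i, x, hxO, hi⟩
    obtain ⟨i, hi, hmin⟩ : ∃ i, (O ∩ V i).Nonempty ∧ ∀ j < i, ¬ (O ∩ V j).Nonempty := by
      have hne : (Finset.univ.filter fun i : Fin 5 => (O ∩ V i).Nonempty).Nonempty := by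
        obtain ⟨i, hi⟩ := hex
        exact ⟨i, by simp [hi]⟩
      have hmem := Finset.min'_mem _ hne
      refine ⟨Finset.min' _ hne, (Finset.mem_filter.1 hmem).2, fun j hj hj' => ?_⟩
      have hjm : j ∈ Finset.univ.filter fun i : Fin 5 => (O ∩ V i).Nonempty :=
        Finset.mem_filter.2 ⟨Finset.mem_univ _, hj'⟩
      have := Finset.min'_le _ j hjm
      exact absurd hj (not_lt.2 this)
    obtain ⟨y, hyO, hyV⟩ := hi
    refine ⟨y, hyO, mem_iUnion.2 ⟨i, hyV, ?_⟩⟩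
    intro hyc
    obtain ⟨w, hwO, hw⟩ := mem_closure_iff.1 hyc O hO hyO
    simp only [mem_iUnion] at hw
    obtain ⟨j, hj, hwj⟩ := hw
    exact hmin j hj ⟨w, hwO, hwj⟩
  have hclosure_avoid : ∀ i, ∀ x ∈ closure (D i), ∀ y ∈ D i, dist x y ≠ 1 := by
    intro i x hx y hy hxy
    -- move both by a small translation
    obtain ⟨ε, hε0, hε⟩ := Metric.isOpen_iff.1 (hDo i) y hy
    obtain ⟨x', hx', hdx⟩ := Metric.mem_closure_iff.1 hx ε hε0
    have hy' : y + (x' - x) ∈ D i := by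
      apply hε
      rw [Metric.mem_ball, dist_eq_norm]
      have : y + (x' - x) - y = x' - x := by ring
      rw [this, ← dist_eq_norm, dist_comm]
      exact hdx
    refine hVa i x' (hDV i hx') _ (hDV i hy') ?_
    rw [dist_eq_norm] at hxy ⊢
    have : x' - (y + (x' - x)) = x - y := by ring
    rw [this, hxy]
  refine ⟨fun i => interior (closure (D i)), fun i => isOpen_interior, ?_, ?_, ?_, ?_⟩
  · intro i
    refine Subset.antisymm ?_ ?_
    · refine interior_mono ?_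
      exact closure_minimal interior_subset isClosed_closure
    · refine (interior_maximal ?_ isOpen_interior)
      exact subset_closure
  · intro i j hij
    have h1 : Disjoint (closure (D i)) (D j) := (hDd i j hij).closure_left (hDo j)
    have h2 : Disjoint (interior (closure (D i))) (D j) := h1.mono_left interior_subset
    have h3 : Disjoint (interior (closure (D i))) (closure (D j)) := h2.closure_right isOpen_interior
    exact h3.mono_right interior_subset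
  · intro i x hx y hy hxy
    -- move `y` into `D i`
    obtain ⟨ε, hε0, hε⟩ := Metric.isOpen_iff.1 isOpen_interior x hx
    obtain ⟨y', hy', hdy⟩ := Metric.mem_closure_iff.1 (interior_subset hy) ε hε0
    have hx' : x + (y' - y) ∈ interior (closure (D i)) := by
      apply hε
      rw [Metric.mem_ball, dist_eq_norm]
      have : x + (y' - y) - x = y' - y := by ring
      rw [this, ← dist_eq_norm, dist_comm]
      exact hdy
    refine hclosure_avoid i _ (interior_subset hx') y' hy' ?_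
    rw [dist_eq_norm] at hxy ⊢
    have : x + (y' - y) - y' = x - y := by ring
    rw [this, hxy]
  · refine hDdense.mono ?_
    refine iUnion_mono fun i => ?_
    exact interior_maximal subset_closure (hDo i)

/-- **T2**: measurable a.e. `1`-avoiding sets with conull union give regular open, pairwise disjoint,
unit-avoiding sets with dense union. -/
theorem main {A : Fin 5 → Set ℂ} (hA : ∀ i, MeasurableSet (A i))
    (hav : ∀ i, ∀ᵐ z : ℂ, z ∈ A i → ∀ᵐ θ : ℝ, z + Complex.exp (θ * Complex.I) ∉ A i)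
    (hcov : ∀ᵐ z : ℂ, ∃ i, z ∈ A i) :
    ∃ U : Fin 5 → Set ℂ, (∀ i, IsOpen (U i)) ∧ (∀ i, interior (closure (U i)) = U i) ∧
      (∀ i j, i ≠ j → Disjoint (U i) (U j)) ∧
      (∀ i, ∀ x ∈ U i, ∀ y ∈ U i, dist x y ≠ 1) ∧ Dense (⋃ i, U i) := by
  have hav' : ∀ i, AEAvoid (A i) := hav
  choose A' hsub hm hav2 hfill using fun i => fill (hA i) (hav' i)
  have hcov' : ∀ᵐ z : ℂ, ∃ i, Nul (A' i) z := by
    filter_upwards [hcov, ae_all_iff.2 hav2] with z hz h
    obtain ⟨i, hi⟩ := hz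
    exact ⟨i, h i (hsub i hi)⟩
  refine regularise (V := fun i => interior (A' i)) (fun i => isOpen_interior)
    (fun i => (hav2 i).interior) ?_
  rw [dense_iff_inter_open]
  intro O hO hOne
  obtain ⟨i, B, hBO, hBo, hBne, hBN⟩ := dense_nul hm hcov' hO hOne
  obtain ⟨O', hO'B, hO'o, hO'ne, hO'A⟩ := hfill i B hBo hBne hBN
  obtain ⟨x, hx⟩ := hO'ne
  exact ⟨x, hBO (hO'B hx), mem_iUnion.2 ⟨i, interior_maximal hO'A hO'o hx⟩⟩

/-- Version with the "for every unit vector `u`, for a.e. `z`" form of the avoidance. -/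
theorem main' {A : Fin 5 → Set ℂ} (hA : ∀ i, MeasurableSet (A i))
    (hav : ∀ i, ∀ u : ℂ, ‖u‖ = 1 → ∀ᵐ z : ℂ, z ∈ A i → z + u ∉ A i)
    (hcov : ∀ᵐ z : ℂ, ∃ i, z ∈ A i) :
    ∃ U : Fin 5 → Set ℂ, (∀ i, IsOpen (U i)) ∧ (∀ i, interior (closure (U i)) = U i) ∧
      (∀ i j, i ≠ j → Disjoint (U i) (U j)) ∧
      (∀ i, ∀ x ∈ U i, ∀ y ∈ U i, dist x y ≠ 1) ∧ Dense (⋃ i, U i) := by
  refine main hA ?_ hcov
  intro i
  have h1 : ∀ᵐ θ : ℝ, ∀ᵐ z : ℂ, z ∈ A i → z + ue θ ∉ A i :=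
    Eventually.of_forall fun θ => hav i (ue θ) (norm_ue θ)
  have hms : MeasurableSet {x : ℂ × ℝ | x.1 ∈ A i → x.1 + ue x.2 ∉ A i} := by
    have e : {x : ℂ × ℝ | x.1 ∈ A i → x.1 + ue x.2 ∉ A i} =
        (Prod.fst ⁻¹' (A i))ᶜ ∪ ((fun x : ℂ × ℝ => x.1 + ue x.2) ⁻¹' (A i))ᶜ := by
      ext x
      simp only [mem_ofPred_eq, mem_union, mem_compl_iff, mem_preimage]
      tauto
    rw [e]
    exact ((measurable_fst (hA i)).compl).union (measurable_add_ue (hA i)).compl
  have h2 : ∀ᵐ z : ℂ, ∀ᵐ θ : ℝ, z ∈ A i → z + ue θ ∉ A i :=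
    (Measure.ae_ae_comm (μ := (volume : Measure ℂ)) (ν := (volume : Measure ℝ))
      (p := fun z θ => z ∈ A i → z + ue θ ∉ A i) hms).2 h1
  filter_upwards [h2] with z hz hzA
  filter_upwards [hz] with θ hθ
  exact hθ hzA

/-- Version with the avoidance for a.e. pair `(z, θ)`. -/
theorem main_prod {A : Fin 5 → Set ℂ} (hA : ∀ i, MeasurableSet (A i))
    (hav : ∀ i, ∀ᵐ p : ℂ × ℝ, ¬ (p.1 ∈ A i ∧ p.1 + Complex.exp (Complex.I * p.2) ∈ A i))
    (hcov : ∀ᵐ z : ℂ, ∃ i, z ∈ A i) :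
    ∃ U : Fin 5 → Set ℂ, (∀ i, IsOpen (U i)) ∧ (∀ i, interior (closure (U i)) = U i) ∧
      (∀ i j, i ≠ j → Disjoint (U i) (U j)) ∧
      (∀ i, ∀ x ∈ U i, ∀ y ∈ U i, dist x y ≠ 1) ∧ Dense (⋃ i, U i) := by
  refine main hA (fun i => ?_) hcov
  have h := Measure.ae_ae_of_ae_prod (hav i)
  filter_upwards [h] with z hz hzA
  filter_upwards [hz] with θ hθ hθA
  rw [mul_comm] at hθA
  exact hθ ⟨hzA, hθA⟩

end

end Crest.Agent.R040.T2
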